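import Crest.Agent.X261.Ans.Defs2
import Crest.Agent.X261.Ans.Man2

/-!
# X261/Sh97/Defs (helper97): the reduction by compact analytic sets, definitions

* `Er A x y` : `x`, `y` lie in one compact connected analytic set;
* `BiP Z`    : `Z ⊆ M × M` is proper over both factors;
* `Key A`    : the analytic input (countably many bi-proper analytic relations cover `Er`);
* `GrAt`     : the relation `Y` is a graph along the whole class of `x`;
* `Out k`    : the output of the files `Fd`, `Gr`.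
-/

set_option autoImplicit false
set_option linter.unusedSectionVars false

open Set Filter Topology Module

namespace Crest.Agent.X261.Sh97

open Crest.Agent.X261.Ans

variable {E : Type} [NormedAddCommGroup E] [NormedSpace ℂ E] {M : Type} [TopologicalSpace M]

/-- `x` and `y` lie in one compact connected analytic set -/
def Er (A : HA E M) (x y : M) : Prop :=
  ∃ Z : Set M, IsCompact Z ∧ IsPreconnected Z ∧ A.An univ Z ∧ x ∈ Z ∧ y ∈ Z

/-- proper over both factors -/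
def BiP (Z : Set (M × M)) : Prop :=
  ∀ K : Set M, IsCompact K → IsCompact (Z ∩ Prod.fst ⁻¹' K) ∧ IsCompact (Z ∩ Prod.snd ⁻¹' K)

/-- the analytic input -/
structure Key (A : HA E M) where
  Z : ℕ → Set (M × M)
  an : ∀ c, (A.prod A).An univ (Z c)
  bip : ∀ c, BiP (Z c)
  er : ∀ x y, Er A x y → ∃ c, (x, y) ∈ Z c

/-- `π` is a foliation chart of `Y` on `U ∋ x`, and `Y` is a graph near every point `(x, b)` -/
structure GrAt (A : HA E M) (Y : Set (M × M)) (p : ℕ) (x : M) (U : Set M)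
    (π : M → Fin p → ℂ) : Prop where
  opn : IsOpen U
  mem : x ∈ U
  subm : ∀ y ∈ U, A.Subm (HA.self (Fin p → ℂ)) π y
  iff : ∀ y ∈ U, ∀ z ∈ U, (y, z) ∈ Y ↔ π y = π z
  sat : ∀ y ∈ U, ∀ z ∈ U, (y, z) ∈ Y → ∀ q, (z, q) ∈ Y → (y, q) ∈ Y
  gr : ∀ b, (x, b) ∈ Y → ∃ τ : M → Fin p → ℂ, A.Hol (HA.self (Fin p → ℂ)) τ b ∧
    ∀ᶠ q in 𝓝 (x, b), (q ∈ Y ↔ π q.1 = τ q.2)

/-- the maximal bi-proper irreducible relation -/
structure Out {A : HA E M} (k : Key A) where
  p : ℕ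
  r : ℕ
  hpr : p + r = finrank ℂ E
  Y : Set (M × M)
  irr : (A.prod A).Irr univ Y (finrank ℂ E + r)
  diag : ∀ x, (x, x) ∈ Y
  symm : ∀ x y, (x, y) ∈ Y → (y, x) ∈ Y
  bip : BiP Y
  max : ∀ (Y' : Set (M × M)) (d : ℕ), (A.prod A).Irr univ Y' d → (∀ x, (x, x) ∈ Y') → BiP Y' →
    Y' ⊆ Y
  inv : ∀ g f : M → M, HA.Bih A A univ univ g f → ∀ x y, (x, y) ∈ Y → (g x, g y) ∈ Y
  pos : ¬ CompactSpace M → 1 ≤ p
  forms : ∀ (i : A.ι), ∀ x ∈ (A.e i).source, ∃ (W : Set E) (f : Fin p → E × E → ℂ), IsOpen W ∧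
    IsPreconnected W ∧ A.e i x ∈ W ∧ W ⊆ (A.e i).target ∧
    (∀ j, AnalyticOnNhd ℂ (f j) (W ×ˢ W)) ∧
    (∀ j, ∀ y ∈ W, ∀ z ∈ W, ((A.e i).symm y, (A.e i).symm z) ∈ Y → f j (y, z) = 0) ∧
    ∃ z ∈ W, Function.Surjective (fderiv ℂ (fun y => fun j => f j (z, y)) z)
  /-- the points that are not general -/
  B : Set M
  cov : A.Cov (finrank ℂ E) B
  gr : ∀ x, x ∉ B → ∃ (U : Set M) (π : M → Fin p → ℂ), GrAt A Y p x U π
  loc : ∀ x, x ∉ B → ∀ c, ∀ᶠ q in 𝓝 (x, x), q ∈ k.Z c → q ∈ Y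

/-- the statement proved in `Sh97/Main` -/
def OutStmt : Prop :=
  ∀ (E : Type) [NormedAddCommGroup E] [NormedSpace ℂ E] [FiniteDimensional ℂ E] (M : Type)
    [TopologicalSpace M] [T2Space M] [ConnectedSpace M] (A : HA E M) [Countable A.ι] (k : Key A),
    Nonempty (Out k)

end Crest.Agent.X261.Sh97
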