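import Crest.Agent.X261.Sh97.Out
import Crest.Agent.X261.Ans.Eqv

/-!
# X261/Sh97/Main (helper97): `OutStmt`, unconditional
-/

set_option autoImplicit false

namespace Crest.Agent.X261.Sh97

theorem outStmt : OutStmt := outStmt_of Ans.eqvK

end Crest.Agent.X261.Sh97
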