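import Crest.Agent.X261.Sh97.Defs
import Crest.Agent.X261.Ans.EqvD

/-!
# X261/Sh97/Fd (helper97): the class of bi-proper irreducible relations
-/

set_option autoImplicit false
set_option linter.unusedSectionVars false

open Set Filter Topology Module

namespace Crest.Agent.X261.Sh97

open Crest.Agent.X261.Ans

variable {E : Type} [NormedAddCommGroup E] [NormedSpace ℂ E] [FiniteDimensional ℂ E]
  {M : Type} [TopologicalSpace M] {A : HA E M}

/-! ### `Er` and `BiP` -/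

theorem cpt_of_eq {X : Type*} [TopologicalSpace X] {S T : Set X} (h : IsCompact S) (e : S = T) :
    IsCompact T := e ▸ h

theorem Er.symm {x y : M} (h : Er A x y) : Er A y x := by
  obtain ⟨Z, h1, h2, h3, h4, h5⟩ := h
  exact ⟨Z, h1, h2, h3, h5, h4⟩

theorem Er.trans {x y z : M} (h : Er A x y) (h' : Er A y z) : Er A x z := by
  obtain ⟨Z, h1, h2, h3, h4, h5⟩ := h
  obtain ⟨Z', a1, a2, a3, a4, a5⟩ := h'
  exact ⟨Z ∪ Z', h1.union a1, h2.union y h5 a4 a2, h3.union a3, Or.inl h4, Or.inr a5⟩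

theorem er_refl [T2Space M] (A : HA E M) (x : M) : Er A x x :=
  ⟨{x}, isCompact_singleton, isPreconnected_singleton, fun y _ => HA.anAt_singleton A x y, rfl, rfl⟩

theorem BiP.sub {Z Y : Set (M × M)} (h : BiP Z) (hY : IsClosed Y) (hs : Y ⊆ Z) : BiP Y :=
  fun K hK => ⟨cpt_of_eq ((h K hK).1.inter_left hY) (by rw [← inter_assoc, inter_eq_left.2 hs]),
    cpt_of_eq ((h K hK).2.inter_left hY) (by rw [← inter_assoc, inter_eq_left.2 hs])⟩

theorem BiP.swap {Z : Set (M × M)} (h : BiP Z) : BiP (Prod.swap ⁻¹' Z) := fun K hK => by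
  constructor
  · have := (h K hK).2.image continuous_swap
    rwa [image_swap_eq_preimage_swap] at this
  · have := (h K hK).1.image continuous_swap
    rwa [image_swap_eq_preimage_swap] at this

theorem biP_diag : BiP {q : M × M | q.1 = q.2} := fun K hK => by
  have h := hK.image (f := fun x : M => (x, x)) (continuous_id.prodMk continuous_id)
  constructor
  · convert h using 1
    ext ⟨a, b⟩
    constructor
    · rintro ⟨h1, h2⟩
      exact ⟨a, h2, Prod.ext rfl h1⟩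
    · rintro ⟨x, h1, h2⟩
      cases h2
      exact ⟨rfl, h1⟩
  · convert h using 1
    ext ⟨a, b⟩
    constructor
    · rintro ⟨h1, h2⟩
      exact ⟨b, h2, Prod.ext h1.symm rfl⟩
    · rintro ⟨x, h1, h2⟩
      cases h2
      exact ⟨rfl, h1⟩

theorem BiP.map {Z : Set (M × M)} (h : BiP Z) {g f : M → M} (hg : Continuous g)
    (hf : Continuous f) (fg : ∀ x, f (g x) = x) (gf : ∀ x, g (f x) = x) :
    BiP ((fun q : M × M => (f q.1, f q.2)) ⁻¹' Z) := fun K hK => by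
  have hG : Continuous fun q : M × M => (g q.1, g q.2) := by fun_prop
  constructor
  · refine cpt_of_eq ((h _ (hK.image hf)).1.image hG) ?_
    ext ⟨a, b⟩
    constructor
    · rintro ⟨⟨u, v⟩, ⟨h1, w, h2, h3⟩, h4⟩
      cases h4
      refine ⟨by simpa only [mem_preimage, fg] using h1, ?_⟩
      change g u ∈ K
      change f w = u at h3
      rwa [← h3, gf]
    · rintro ⟨h1, h2⟩
      exact ⟨(f a, f b), ⟨h1, a, h2, rfl⟩, Prod.ext (gf a) (gf b)⟩
  · refine cpt_of_eq ((h _ (hK.image hf)).2.image hG) ?_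
    ext ⟨a, b⟩
    constructor
    · rintro ⟨⟨u, v⟩, ⟨h1, w, h2, h3⟩, h4⟩
      cases h4
      refine ⟨by simpa only [mem_preimage, fg] using h1, ?_⟩
      change g v ∈ K
      change f w = v at h3
      rwa [← h3, gf]
    · rintro ⟨h1, h2⟩
      exact ⟨(f a, f b), ⟨h1, b, h2, rfl⟩, Prod.ext (gf a) (gf b)⟩

/-- the class of `x` -/
def cl (Y : Set (M × M)) (x : M) : Set M := {y | (x, y) ∈ Y}

theorem BiP.compact_cl {Z : Set (M × M)} (h : BiP Z) (x : M) : IsCompact (cl Z x) := by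
  refine cpt_of_eq ((h {x} isCompact_singleton).1.image continuous_snd) ?_
  ext y
  constructor
  · rintro ⟨⟨a, b⟩, ⟨h1, h2⟩, h3⟩
    cases h3
    change a = x at h2
    subst h2
    exact h1
  · exact fun hy => ⟨(x, y), ⟨hy, rfl⟩, rfl⟩

theorem an_cl {Z : Set (M × M)} (h : (A.prod A).An univ Z) (x : M) : A.An univ (cl Z x) :=
  h.preimage (fun y _ => HA.hol_inr A A x y) (mapsTo_univ _ _)

/-! ### local structure -/

/-- points of `Z` near `x` lie on components through `x` -/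
theorem ev_comp {U Z : Set M} (hU : IsOpen U) (hZ : A.An U Z) {x : M} (hx : x ∈ U) :
    ∀ᶠ y in 𝓝 x, y ∈ Z → ∃ C, A.Comp U Z C ∧ x ∈ C ∧ y ∈ C := by
  obtain ⟨N, hN, hf⟩ := HA.comp_lf hU hZ hx
  have h1 : ∀ᶠ y in 𝓝 x, ∀ C ∈ {Y | A.Comp U Z Y ∧ (Y ∩ N).Nonempty}, x ∉ C → y ∉ C := by
    rw [eventually_all_finite hf]
    intro C hC
    by_cases hxC : x ∈ C
    · exact Eventually.of_forall fun _ h => (h hxC).elim
    · exact ((hC.1.an hU hZ x hx).eventually_notMem hxC).mono fun _ h _ => h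
  filter_upwards [h1, hN, hU.mem_nhds hx] with y h2 h3 h4 h5
  obtain ⟨C, hC, hyC⟩ := HA.comp_cover hU hZ h4 h5
  by_contra hn
  exact h2 C ⟨hC, y, hyC, h3⟩ (fun hxC => hn ⟨C, hC, hxC, hyC⟩) hyC

theorem er_of_comp {Z C : Set M} (hK : IsCompact Z) (hZ : A.An univ Z) (hC : A.Comp univ Z C)
    {x y : M} (hx : x ∈ C) (hy : y ∈ C) : Er A x y := by
  obtain ⟨h1, d, h2⟩ := hC.irr isOpen_univ hZ
  exact ⟨C, hK.of_isClosed_subset h2.1.isClosed h1, by simpa using h2.preconnected, h2.1, hx, hy⟩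

/-- **LOC** -/
theorem ev_er {Z : Set M} (hK : IsCompact Z) (hZ : A.An univ Z) (x : M) :
    ∀ᶠ y in 𝓝 x, y ∈ Z → Er A x y :=
  (ev_comp isOpen_univ hZ (mem_univ x)).mono fun _ h hy =>
    let ⟨_, h1, h2, h3⟩ := h hy
    er_of_comp hK hZ h1 h2 h3

/-! ### the class -/

variable [T2Space M] [ConnectedSpace M] [Countable A.ι]

/-- the members of the class -/
def Mem (A : HA E M) (Y : Set (M × M)) : Prop :=
  (∃ d, (A.prod A).Irr univ Y d) ∧ (∀ x, (x, x) ∈ Y) ∧ BiP Y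

instance : Countable (A.prod A).ι := inferInstanceAs (Countable (A.ι × A.ι))

instance : Countable (A.prod (A.prod A)).ι := inferInstanceAs (Countable (A.ι × A.ι × A.ι))

theorem not_cov_er {Y₁ Y₂ : Set (M × M)} (h₁ : Mem A Y₁) (h₂ : Mem A Y₂) {C : Set (M × M × M)}
    {d : ℕ} (hC : (A.prod (A.prod A)).Irr univ C d) (hs : C ⊆ FP Y₁ Y₂)
    (hd : ∀ x, (x, x, x) ∈ C) :
    ¬ (A.prod (A.prod A)).Cov d (C ∩ {t | Er A t.1 t.2.2}) := by
  intro hc
  obtain ⟨⟨d₁, a1⟩, -, a3⟩ := h₁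
  obtain ⟨⟨d₂, b1⟩, -, b3⟩ := h₂
  obtain ⟨x₀⟩ : Nonempty M := inferInstance
  rcases d with _ | d
  · exact eq_empty_iff_forall_notMem.1 (HA.cov_zero.1 hc) (x₀, x₀, x₀) ⟨hd x₀, er_refl A x₀⟩
  have hmid : ∀ t : M × M × M, (A.prod (A.prod A)).Hol A (fun t => t.2.1) t :=
    fun t => (HA.hol_snd _ _ t).fst
  obtain ⟨y, hy⟩ := (hc.fibre (fun t _ => hmid t)).dense_compl.nonempty
  have hy' : (A.prod (A.prod A)).Cov (d + 1 - finrank ℂ E)
      (C ∩ {t | Er A t.1 t.2.2} ∩ (fun t : M × M × M => t.2.1) ⁻¹' {y}) := not_not.1 hy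
  have e1 := ev_er (a3.swap.compact_cl y) (an_cl a1.swap.1 y) y
  have e2 := ev_er (b3.compact_cl y) (an_cl b1.1 y) y
  have c1 : ContinuousAt (fun t : M × M × M => t.1) (y, y, y) := continuous_fst.continuousAt
  have c2 : ContinuousAt (fun t : M × M × M => t.2.2) (y, y, y) :=
    continuous_snd.snd.continuousAt
  have e3 : {t : M × M × M | ((t.1, y) ∈ Y₁ → Er A y t.1) ∧ ((y, t.2.2) ∈ Y₂ → Er A y t.2.2)} ∈
      𝓝 (y, y, y) := (c1.eventually e1).and (c2.eventually e2)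
  have h1 : (A.prod (A.prod A)).Cov (d + 1 - finrank ℂ E) (C ∩ {t : M × M × M |
      ((t.1, y) ∈ Y₁ → Er A y t.1) ∧ ((y, t.2.2) ∈ Y₂ → Er A y t.2.2)} ∩
      (fun t : M × M × M => t.2.1) ⁻¹' {(fun t : M × M × M => t.2.1) (y, y, y)}) := by
    refine hy'.sub ?_
    rintro ⟨a, b, c⟩ ⟨⟨h1, h2, h3⟩, h4⟩
    change b = y at h4
    subst h4
    exact ⟨⟨h1, (h2 (hs h1).1).symm.trans (h3 (hs h1).2)⟩, rfl⟩
  rcases hk : d + 1 - finrank ℂ E with _ | s
  · rw [hk] at h1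
    exact eq_empty_iff_forall_notMem.1 (HA.cov_zero.1 h1) (y, y, y)
      ⟨⟨hd y, mem_of_mem_nhds e3⟩, rfl⟩
  rw [hk] at h1
  obtain ⟨O, o1, o2, -, -, o3⟩ := HA.usc (hC.1 _ (mem_univ _)) (hmid (y, y, y)) e3 h1
  have e : finrank ℂ E + s + 1 = d + 1 := by omega
  rw [e] at o3
  exact hC.not_cov isOpen_univ o1 ⟨(y, y, y), ⟨o2, mem_univ _⟩, hd y⟩
    (o3.sub fun t ht => ⟨ht.2, ht.1.1⟩)

theorem mem_comp {Z Y : Set (M × M)} (hZ : (A.prod A).An univ Z) (hb : BiP Z)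
    (hY : (A.prod A).Comp univ Z Y) (hd : ∀ x, (x, x) ∈ Y) : Mem A Y :=
  ⟨(hY.irr isOpen_univ hZ).2, hd,
    hb.sub (hY.an isOpen_univ hZ).isClosed (hY.irr isOpen_univ hZ).1⟩

/-- **UP'** -/
theorem up (k : Key A) {Y₁ Y₂ : Set (M × M)} (h₁ : Mem A Y₁) (h₂ : Mem A Y₂)
    {C : Set (M × M × M)} (hC : (A.prod (A.prod A)).Comp univ (FP Y₁ Y₂) C)
    (hd : ∀ x, (x, x, x) ∈ C) : ∃ Y₃, Mem A Y₃ ∧ ∀ t ∈ C, (t.1, t.2.2) ∈ Y₃ := by
  obtain ⟨h1, d, h2⟩ := hC.irr isOpen_univ (HA.an_FP h₁.1.choose_spec.1 h₂.1.choose_spec.1)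
  have han : ∀ c, (A.prod (A.prod A)).An univ
      ((fun t : M × M × M => (t.1, t.2.2)) ⁻¹' k.Z c) := fun c =>
    (k.an c).preimage (fun t _ => HA.hol_pr13 A t) (mapsTo_univ _ _)
  have h3 : ∃ c, univ ∩ C ⊆ (fun t : M × M × M => (t.1, t.2.2)) ⁻¹' k.Z c := by
    by_contra hn
    refine not_cov_er h₁ h₂ h2 h1 hd ((HA.cov_iUnion fun c =>
      (h2.drop isOpen_univ (han c)).resolve_left fun h => hn ⟨c, h⟩).sub ?_)
    rintro t ⟨h3, h4⟩
    obtain ⟨c, hc⟩ := k.er _ _ h4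
    exact mem_iUnion.2 ⟨c, ⟨mem_univ _, h3⟩, hc⟩
  obtain ⟨c, h3⟩ := h3
  obtain ⟨Y, h4, h5⟩ := HA.Irr.img_comp isOpen_univ (k.an c) isOpen_univ h2
    (f := fun t : M × M × M => (t.1, t.2.2)) (fun t _ => HA.hol_pr13 A t)
    (fun t ht => ⟨mem_univ _, h3 ht⟩)
  exact ⟨Y, mem_comp (k.an c) (k.bip c) h4 fun x => h5 _ ⟨mem_univ _, hd x⟩,
    fun t ht => h5 t ⟨mem_univ _, ht⟩⟩

/-- the class of bi-proper irreducible relations -/
def relK (k : Key A) : RelK A where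
  K := {Y | Mem A Y}
  ne := ⟨{q | q.1 = q.2}, ⟨_, HA.irr_diag A⟩, fun _ => rfl, biP_diag⟩
  irr := fun _ h => h.1
  diag := fun _ h => h.2.1
  symm := fun Y ⟨⟨d, h1⟩, h2, h3⟩ =>
    ⟨Prod.swap ⁻¹' Y, ⟨⟨d, h1.swap⟩, h2, h3.swap⟩, fun _ _ h => h⟩
  up := fun _ h₁ _ h₂ _ hC hd => up k h₁ h₂ hC hd

theorem Mem.map {Y : Set (M × M)} (h : Mem A Y) {g f : M → M} (hb : HA.Bih A A univ univ g f) :
    Mem A ((fun q : M × M => (f q.1, f q.2)) ⁻¹' Y) := by
  obtain ⟨⟨d, h1⟩, h2, h3⟩ := h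
  have hg : Continuous g := continuousOn_univ.1 hb.contOn
  have hf : Continuous f := continuousOn_univ.1 hb.symm.contOn
  refine ⟨⟨d, ?_⟩, fun x => h2 _, h3.map hg hf (fun x => hb.fg x (mem_univ _))
    fun x => hb.gf x (mem_univ _)⟩
  have := (hb.prod hb).irr (by rwa [univ_prod_univ] : (A.prod A).Irr (univ ×ˢ univ) Y d)
  rwa [univ_prod_univ] at this

/-- a bi-proper relation of full dimension forces compactness -/
theorem compact_of_top {Y : Set (M × M)} (h : (A.prod A).Irr univ Y (finrank ℂ E + finrank ℂ E))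
    (hb : BiP Y) : CompactSpace M := by
  obtain ⟨q, -, hq⟩ := h.2.1
  have h1 : Y ∈ 𝓝 q := HA.Reg.mem_nhds (A := A.prod A) (by rwa [finrank_prod])
  have h2 : Y = univ := h.1.eq_univ h1
  have := hb.compact_cl q.1
  rw [h2] at this
  exact ⟨this⟩

/-! ### compact analytic sets through a general point -/

theorem loc_key (k : Key A) {Y : Set (M × M)} (hY : (A.prod A).An univ Y)
    (hm : ∀ Y', Mem A Y' → Y' ⊆ Y) (c : ℕ) :
    A.Cov (finrank ℂ E) {x | ¬ ∀ᶠ q in 𝓝 (x, x), q ∈ k.Z c → q ∈ Y} := by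
  obtain ⟨h1, x, h2⟩ := HA.loc_along (k.an c) hY (fun x => HA.hol_diag A x)
    fun C hC hd => hm C (mem_comp (k.an c) (k.bip c) hC hd)
  exact h1.cov_of_ne fun h => (h ▸ mem_univ x : x ∈ {x | ¬ ∀ᶠ q in 𝓝 (x, x), q ∈ k.Z c → q ∈ Y}) h2

/-- a compact irreducible analytic set through a general point `x` lies in the class of `x` -/
theorem irr_sub_cl (k : Key A) {Y : Set (M × M)} (hY : (A.prod A).An univ Y) {x : M}
    (hx : ∀ c, ∀ᶠ q in 𝓝 (x, x), q ∈ k.Z c → q ∈ Y) {C : Set M} {d : ℕ} (hK : IsCompact C)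
    (hC : A.Irr univ C d) (hxC : x ∈ C) : C ⊆ cl Y x := by
  obtain ⟨c, hc⟩ := hC.sub_iUnion isOpen_univ (Z := fun c => cl (k.Z c) x)
    (fun c => an_cl (k.an c) x) fun y hy => mem_iUnion.2 (k.er x y
      ⟨C, hK, by simpa using hC.preconnected, hC.1, hxC, hy.2⟩)
  have c1 : ContinuousAt (fun y : M => (x, y)) x := by fun_prop
  have := hC.sub_of_open isOpen_univ (an_cl hY x) ⟨mem_univ x, hxC⟩
    ((c1.eventually (hx c)).mono fun y h hy => h (hc ⟨mem_univ _, hy⟩))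
  exact fun y hy => this ⟨mem_univ _, hy⟩

/-- a compact analytic set lies in the class of `x` near a general point `x` -/
theorem ev_cl (k : Key A) {Y : Set (M × M)} (hY : (A.prod A).An univ Y) {x : M}
    (hx : ∀ c, ∀ᶠ q in 𝓝 (x, x), q ∈ k.Z c → q ∈ Y) {Z : Set M} (hK : IsCompact Z)
    (hZ : A.An univ Z) : ∀ᶠ y in 𝓝 x, y ∈ Z → (x, y) ∈ Y :=
  (ev_comp isOpen_univ hZ (mem_univ x)).mono fun _ h hy => by
    obtain ⟨C, h1, h2, h3⟩ := h hy
    obtain ⟨h4, d, h5⟩ := h1.irr isOpen_univ hZ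
    exact irr_sub_cl k hY hx (hK.of_isClosed_subset h5.1.isClosed h4) h5 h2 h3

end Crest.Agent.X261.Sh97
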