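import Crest.Agent.X261.Sh97.Fd
import Crest.Agent.X261.Ans.Dec

/-!
# X261/Sh97/Gr (helper97): the graph lemma; holomorphic maps from continuous ones
-/

set_option autoImplicit false
set_option linter.unusedSectionVars false

open Set Filter Topology Module

namespace Crest.Agent.X261.Sh97

open Crest.Agent.X261.Ans

variable {E F : Type} [NormedAddCommGroup E] [NormedSpace ℂ E] [FiniteDimensional ℂ E]
  [NormedAddCommGroup F] [NormedSpace ℂ F] [FiniteDimensional ℂ F]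
  {M : Type} [TopologicalSpace M] {A : HA E M}

/-- a continuous map whose graph lies in an analytic set of the right dimension is holomorphic -/
theorem hol_of_graph {τ : M → F} {b : M} (hc : ∀ᶠ y in 𝓝 b, ContinuousAt τ y)
    {Γ : Set (F × M)} (hΓ : ((HA.self F).prod A).AnAt Γ (τ b, b))
    (hm : ∀ᶠ y in 𝓝 b, (τ y, y) ∈ Γ) {O : Set (F × M)} (hO : O ∈ 𝓝 (τ b, b))
    (hd : ((HA.self F).prod A).Cov (finrank ℂ E + 1) (Γ ∩ O)) : A.Hol (HA.self F) τ b := by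
  obtain ⟨i, hi⟩ := A.cover b
  rw [HA.hol_self_iff hi]
  let ψ : E × F → F × M := fun q => (q.2, (A.e i).symm q.1)
  have hψ : ∀ q : E × F, q.1 ∈ (A.e i).target →
      (HA.self (E × F)).Hol ((HA.self F).prod A) ψ q := fun q hq =>
    (HA.self_hol_iff.2 analyticAt_snd).prodMk
      ((HA.hol_symm hq).comp (HA.self_hol_iff.2 analyticAt_fst))
  have hb : ContinuousAt (fun y => (τ y, y)) b := hc.self_of_nhds.prodMk continuousAt_id
  have h1 : ∀ᶠ y in 𝓝 b, ContinuousAt τ y ∧ (τ y, y) ∈ Γ ∧ (τ y, y) ∈ interior O ∧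
      ((HA.self F).prod A).AnAt Γ (τ y, y) :=
    hc.and (hm.and ((hb.eventually (interior_mem_nhds.2 hO)).and (hb.eventually hΓ.eventually)))
  obtain ⟨U, hU, hUo, hbU⟩ := _root_.mem_nhds_iff.1
    (((HA.ev_chart hi).1 h1).and (HA.ev_target hi))
  have h2 : Ans.Cov (finrank ℂ E + 1) (Prod.swap '' ((univ ×ˢ (A.e i).target) ∩
      (((HA.self F).prod A).e ((), i)).symm ⁻¹' (Γ ∩ O))) :=
    (hd ((), i)).image fun _ _ => analyticAt_snd.prod analyticAt_fst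
  refine graph_hol (Γ := {q | q.1 ∈ (A.e i).target ∧ ψ q ∈ Γ ∩ interior O}) hUo
    (fun z hz => ((hU hz).1.1.comp ((A.e i).continuousAt_symm (hU hz).2)).continuousWithinAt)
    (fun z hz => ⟨⟨(hU hz).2, (hU hz).1.2.1, (hU hz).1.2.2.1⟩, ?_⟩) (h2.sub ?_) _ hbU
  · have h3 := HA.self_anAt.1 (HA.AnAt.preimage (hψ (z, τ ((A.e i).symm z)) (hU hz).2)
      (hU hz).1.2.2.2)
    refine h3.congr ?_
    have c1 : ContinuousAt (fun q : E × F => q.1) (z, τ ((A.e i).symm z)) :=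
      continuous_fst.continuousAt
    filter_upwards [c1.eventually ((A.e i).open_target.mem_nhds (hU hz).2),
      (hψ (z, τ ((A.e i).symm z)) (hU hz).2).cont.eventually
        (isOpen_interior.mem_nhds (hU hz).1.2.2.1)] with q h4 h5
    exact ⟨fun h => ⟨h4, h, h5⟩, fun h => h.2.1⟩
  · rintro ⟨z, t⟩ ⟨h3, h4, h5⟩
    exact ⟨(t, z), ⟨⟨mem_univ _, h3⟩, h4, interior_subset h5⟩, rfl⟩

/-- **graph lemma**: a pure-dimensional analytic set, finite and generically injective over `M`,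
is a graph -/
theorem graph_lemma [T2Space M] {Γ : Set (F × M)} {t : F} {b : M} (hq : (t, b) ∈ Γ)
    (hΓ : ((HA.self F).prod A).AnAt Γ (t, b))
    (hi : ∀ᶠ q in 𝓝[≠] (t, b), q ∈ Γ → q.2 ≠ b)
    (hp : ∀ᶠ q in 𝓝 (t, b), q ∈ Γ → ∀ O ∈ 𝓝 q, ¬ ((HA.self F).prod A).Cov (finrank ℂ E) (Γ ∩ O))
    {S : Set M} (hS : A.Cov (finrank ℂ E) S) {W : Set (F × M)} (hW : W ∈ 𝓝 (t, b))
    (hj : ∀ q ∈ Γ ∩ W, ∀ q' ∈ Γ ∩ W, q.2 = q'.2 → q.2 ∉ S → q = q') :
    ∃ τ : M → F, A.Hol (HA.self F) τ b ∧ ∀ᶠ q in 𝓝 (t, b), (q ∈ Γ ↔ q.1 = τ q.2) := by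
  classical
  obtain ⟨O₀, hO₀, hOW, hfin, -⟩ := HA.fib_usc hΓ (HA.hol_snd _ A (t, b)) hi
    (inter_mem hW (hp.and hΓ.eventually))
  set O := interior O₀ with hO
  have hOo : IsOpen O := isOpen_interior
  have hbO : (t, b) ∈ O := mem_interior_iff_mem_nhds.2 hO₀
  have hO' : O ⊆ O₀ := interior_subset
  -- openness
  have hop : ∀ q ∈ Γ ∩ O, ∀ V ∈ 𝓝 q, Prod.snd '' (Γ ∩ V) ∈ 𝓝 q.2 := by
    intro q hq V hV
    refine HA.image_mem_nhds (hOW (hO' hq.2)).2.2 (HA.hol_snd _ A q) ?_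
      ((hOW (hO' hq.2)).2.1 hq.1) hV
    have h1 : ∀ᶠ y in 𝓝[≠] q, y ∉ Γ ∩ O₀ ∩ Prod.snd ⁻¹' {q.2} := by
      have h2 := ((hfin q.2).subset (sdiff_subset (t := {q}))).isClosed.isOpen_compl.mem_nhds
        (x := q) (fun h => h.2 rfl)
      filter_upwards [mem_nhdsWithin_of_mem_nhds h2, self_mem_nhdsWithin] with y h3 h4 h5
      exact h3 ⟨h5, h4⟩
    filter_upwards [h1, mem_nhdsWithin_of_mem_nhds (hOo.mem_nhds hq.2)] with y h2 h3 h4 h5
    exact h2 ⟨⟨h4, hO' h3⟩, h5⟩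
  -- injectivity
  have hinj : ∀ q ∈ Γ ∩ O, ∀ q' ∈ Γ ∩ O, q.2 = q'.2 → q = q' := by
    intro q hq q' hq' e
    by_contra hne
    obtain ⟨V, V', v1, v2, v3, v4, v5⟩ := t2_separation hne
    have h1 := hop q hq _ (inter_mem (v1.mem_nhds v3) (hOo.mem_nhds hq.2))
    have h2 := hop q' hq' _ (inter_mem (v2.mem_nhds v4) (hOo.mem_nhds hq'.2))
    rw [← e] at h2
    obtain ⟨s, h3, ⟨y, h4, h5⟩, y', h6, h7⟩ :=
      ((hS.frequently_notMem q.2).and_eventually (inter_mem h1 h2)).exists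
    have h8 : y = y' := hj y ⟨h4.1, (hOW (hO' h4.2.2)).1⟩ y' ⟨h6.1, (hOW (hO' h6.2.2)).1⟩
      (h5.trans h7.symm) (h5 ▸ h3)
    exact Set.disjoint_left.1 v5 h4.2.1 (h8 ▸ h6.2.1)
  let τ : M → F := fun s => if h : ∃ u, (u, s) ∈ Γ ∩ O then h.choose else t
  have hτ : ∀ q ∈ Γ ∩ O, τ q.2 = q.1 := by
    intro q hq
    have h : ∃ u, (u, q.2) ∈ Γ ∩ O := ⟨q.1, hq⟩
    have h1 : τ q.2 = h.choose := dif_pos h
    rw [h1]
    exact congrArg Prod.fst (hinj _ h.choose_spec q hq rfl)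
  have hV : Prod.snd '' (Γ ∩ O) ∈ 𝓝 b := hop (t, b) ⟨hq, hbO⟩ O (hOo.mem_nhds hbO)
  have hmem : ∀ s ∈ Prod.snd '' (Γ ∩ O), (τ s, s) ∈ Γ ∩ O := by
    rintro _ ⟨q, h1, rfl⟩
    rw [hτ q h1]
    exact h1
  have hcont : ∀ s ∈ Prod.snd '' (Γ ∩ O), ContinuousAt τ s := by
    intro s hs N hN
    have c1 : Prod.fst ⁻¹' N ∈ 𝓝 (τ s, s) := continuous_fst.continuousAt.preimage_mem_nhds hN
    refine mem_map.2 (mem_of_superset (hop _ (hmem s hs) _
      (inter_mem c1 (hOo.mem_nhds (hmem s hs).2))) ?_)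
    rintro _ ⟨q, h1, rfl⟩
    change τ q.2 ∈ N
    rw [hτ q ⟨h1.1, h1.2.2⟩]
    exact h1.2.1
  have hτb : τ b = t := hτ (t, b) ⟨hq, hbO⟩
  refine ⟨τ, hol_of_graph (Γ := Γ) (O := O) (mem_of_superset hV hcont) (hτb ▸ hΓ)
    (mem_of_superset hV fun s hs => (hmem s hs).1) (hτb ▸ hOo.mem_nhds hbO) ?_, ?_⟩
  · exact HA.cov_of_fibres (s := 0) hOo (fun q h _ => (hOW (hO' h)).2.2)
      (fun q _ => HA.hol_snd _ A q) fun s => HA.cov_of_countable
        ((hfin s).subset fun q h => ⟨⟨h.1.1, hO' h.1.2⟩, h.2⟩).countable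
  · have c1 : ContinuousAt (fun q : F × M => q.2) (t, b) := continuous_snd.continuousAt
    filter_upwards [hOo.mem_nhds hbO, c1.eventually hV] with q h1 h2
    refine ⟨fun h => (hτ q ⟨h, h1⟩).symm, fun h => ?_⟩
    have := (hmem _ h2).1
    rwa [← h] at this

end Crest.Agent.X261.Sh97
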