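import Crest.Agent.X261.GrL.Lim
import Crest.Agent.X261.Obs.C
import Crest.Agent.X261.Gr.AttS
import Crest.Agent.X261.Cov.Q
import Crest.Agent.X261.Sh72.Main
import Crest.Agent.X261.Gr.Vol

/-!
# X261 / GRED (helper96): the analytic input `KeyS`
-/

set_option autoImplicit false
set_option linter.unusedSectionVars false

open Set Filter Topology MeasureTheory Module

namespace Crest.Agent.X261.Sh97.Key

open Crest.Agent.R275.Geo Crest.Agent.R275.Prod363 Crest.Agent.R273.UCov_914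
open Crest.Agent.R273.Defs_333 Crest.Agent.R273.Kah_333
open Crest.Agent.R275.Core144 Crest.Agent.R275.GC293
open Crest.Agent.R281.Kp_487 (KP)
open Crest.Agent.X261.BT Crest.Agent.X261.Ans Crest.Agent.X261.Cov.P Crest.Agent.X261.Cov.Q
open Crest.Agent.X261.Gr.Att Crest.Agent.X261.Gr.Vol Crest.Agent.X261.GrL Crest.Agent.X261.Obs

noncomputable section

variable {n : ℕ} {X : Type} [TopologicalSpace X] {A : Atl n X} {G : Type} [Group G]
  (D : MonD A G)

/-- the weights on `M × M` -/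
def hw (H : KP A) (p : (aM D).ι) (x : D.cov G × D.cov G) : ℝ :=
  H.u p.1.1 (D.pr x.1) + H.u p.2.1 (D.pr x.2)

theorem cont_hw (H : KP A) (p : (aM D).ι) : ContinuousOn (hw D H p) ((aM D).e p).source :=
  fun _ hx => (((Env.cont_u H hx.1.1).comp_of_eq
    (D.isLocalHomeomorph.continuous.comp continuous_fst).continuousAt rfl).add
      ((Env.cont_u H hx.2.1).comp_of_eq
        (D.isLocalHomeomorph.continuous.comp continuous_snd).continuousAt rfl)).continuousWithinAt

theorem qw_q {H : KP A} {U : Nq D → EReal} (h : QW (HA.of (aN D)) (kN D H).u U) :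
    QW (aM D) (hw D H) fun x => U (q D x) := fun p => by
  refine (((h ((p.1.1, p.2.1), toBi (p.1.2 * p.2.2⁻¹))).comp_clm (appL n n)).mono
    fun z hz => ⟨by simpa using (show z.1 ∈ (A.e p.1.1).target from hz.1),
      by simpa using (show z.2 ∈ (A.e p.2.1).target from hz.2)⟩).congr fun z hz => ?_
  have e := read_q D (p := p.1) (r := p.2) hz.1 hz.2
  exact congrArg (fun y => U y + (((kN D H).u ((p.1.1, p.2.1), toBi (p.1.2 * p.2.2⁻¹)) y : ℝ) :
    EReal)) e.symm

theorem exists_U [CompactSpace X] [T2Space X] [Finite A.ι] [Countable G] (P : Part A) {H : KP A}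
    (hH : H.Pos) {c : ℝ} (hc : 0 ≤ c) : ∃ U : Nq D → EReal, QW (HA.of (aN D)) (kN D H).u U ∧
      IsCompact (Zu (aN D) U 1) ∧ (HA.of (aN D)).An univ (Zu (aN D) U 1) ∧
      ∀ x, Pole (aM D) (fun y => U (q D y)) (x, x) c := by
  let _ : MeasurableSpace (Nq D) := borel _
  have : BorelSpace (Nq D) := ⟨rfl⟩
  obtain ⟨C, O, L, hC, h⟩ := exists_obst_N D hH
  obtain ⟨f, h⟩ := h c hc
  have hN := pos_N D hH
  have hS := slow_N D P hH
  obtain ⟨S⟩ := exists_ubN D hH
  have hq : ∀ s, QP (sc (max (c * C) 1) (kN D H)) O (f s) := fun s =>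
    QP.sc_le (pos_semi hN) (h.qp s) (le_max_left _ _)
  have ho : ∀ s : ℕ, ∀ x ∈ O, x ∉ L → f s x = f 0 x ∧ 0 ≤ f s x := fun s =>
    h.off s 0 (Nat.cast_nonneg s) le_rfl
  obtain ⟨hF, hle⟩ := fam_env hN hS (v := fun s : ℕ => Gr.Vol.obs L (f s))
    (fun s => obs_cont h.opn (h.qp s).cont h.Lc h.LO fun x hx hL => (ho s x hx hL).2)
    (fun s => obs_cpt h.Lc) (fun s => obs_le) (fun x s s' hs => by
      simp only [Gr.Vol.obs]
      split_ifs
      exacts [min_le_min le_rfl (h.anti x (Nat.cast_le.2 hs)), le_rfl])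
    ⟨_, MAo_lt_top (hq 0) h.Lc h.LO, fun s => vol_obs hN hS (le_max_right _ _) (hq s) (hq 0) h.Lc
      h.LO (fun x hx hL => (ho s x hx hL).1) fun x hx hL => (ho s x hx hL).2⟩
  refine ⟨_, hF.qw, hF.cpt hN S zero_le_one, hF.an zero_le_one, fun x => ?_⟩
  obtain ⟨i, hi⟩ := (D.atl G).cover x
  have hO : q D (x, x) ∈ O := h.LO (interior_subset (h.sub ⟨x, rfl⟩))
  obtain ⟨b, hb⟩ := h.pole i.1 _ hO (q_mem_UN D hi hi)
  refine pole_diag (A := HA.of (D.atl G)) (i := i) hi (C := b) ?_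
  filter_upwards [((continuous_q D).tendsto (x, x)).eventually
    (hb.and (h.opn.eventually_mem hO))] with y hy r hr h1
  obtain ⟨s, hs⟩ := exists_nat_ge (-Real.log r)
  refine (lim_le _ s _).trans (EReal.coe_le_coe_iff.2 ((hle s _).trans ?_))
  rw [obs_eq (fun x hx hL => (ho s x hx hL).2) hy.2]
  refine (min_le_right _ _).trans (hy.1 s r h1 ?_)
  rw [← Real.exp_log hr]
  exact Real.exp_le_exp.2 (by linarith)

/-- **KEY** -/
theorem keyS : Sh72.KeyS := by
  intro n X _ _ _ _ A _ hA P H hH G _ _ D hc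
  have : Countable G := Cov.A.countable D
  choose U h1 h2 h3 h4 using fun c : ℕ => exists_U D P hH (Nat.cast_nonneg c)
  refine ⟨⟨fun c => q D ⁻¹' (Zu (aN D) (U c) 1 ∪ Dg D),
    fun c => (an_q_iff D).2 ((h3 c).union (an_Dg D)), fun c K hK =>
      ⟨isCompact_fst D ((h2 c).union (isCompact_Dg D)) hK,
        isCompact_snd D ((h2 c).union (isCompact_Dg D)) hK⟩, ?_⟩⟩
  rintro x y ⟨Z, hK, hZc, hZ, hx, hy⟩
  rcases subsingleton_or_nontrivial (Cn n) with hE | hE
  · have := discrete_of_subsingleton (HA.of (D.atl G))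
    exact ⟨0, Or.inr ((q_mem_Dg D).2 (hZc.subsingleton hx hy))⟩
  have : Nontrivial (Cn (n + n)) := (appH n n).symm.toEquiv.nontrivial
  obtain ⟨c, hc⟩ := (tendsto_natCast_atTop_atTop.eventually
    (key (cont_hw D H) hZ hK hZc hx (2 * finrank ℂ (Cn (n + n))))).exists
  refine ⟨c, Or.inl ?_⟩
  have e1 := hc _ (qw_q D (h1 c)) (h4 c x) y hy
  obtain ⟨W, V, σ, hW, hb⟩ := exists_bih (D := D) (D' := D) bq_div (x, y)
  have hV := hb.mg hW
  have h5 : ∀ᶠ z in 𝓝[≠] (q D (x, y)), z ∈ V := nhdsWithin_le_nhds (hb.opV.mem_nhds hV)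
  rw [← hb.fg _ hW] at e1
  refine ((e1.comp (hb.hf _ hV) ?_ (by positivity)).of_le (u' := U c) (B := 0) ?_).hni_mul volume
    zero_le_one (by rw [one_mul])
  · filter_upwards [h5, self_mem_nhdsWithin] with z hz hne h6
    exact hne ((hb.gf z hz).symm.trans ((congrArg _ h6).trans (hb.gf _ hV)))
  · filter_upwards [h5] with z hz
    rw [show q D (σ z) = z from hb.gf z hz]
    simp

/-- **GRED** -/
theorem gredK : Sk.GredK := Sh72.gredK_of_key keyS

end

end Crest.Agent.X261.Sh97.Key
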