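import Crest.Agent.X261.Sh97.Gr

/-!
# X261/Sh97/Out (helper97): the maximal relation is a graph along the class of a general point
-/

set_option autoImplicit false
set_option linter.unusedSectionVars false

open Set Filter Topology Module

namespace Crest.Agent.X261.Sh97

open Crest.Agent.X261.Ans

variable {E : Type} [NormedAddCommGroup E] [NormedSpace ℂ E] [FiniteDimensional ℂ E]
  {M : Type} [TopologicalSpace M] {A : HA E M}

/-- foliation chart, read on the manifold -/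
theorem fol_chart {Y : Set (M × M)} {p : ℕ} {x : M} (h : Ans.Fol A Y p x) :
    ∃ (U : Set M) (π : M → Fin p → ℂ), IsOpen U ∧ x ∈ U ∧
      (∀ y ∈ U, A.Subm (HA.self (Fin p → ℂ)) π y) ∧
      (∀ y ∈ U, ∀ z ∈ U, (y, z) ∈ Y ↔ π y = π z) ∧
      ∀ y ∈ U, ∀ z ∈ U, (y, z) ∈ Y → ∀ q, (z, q) ∈ Y → (y, q) ∈ Y := by
  obtain ⟨i, U, π, h1, h2, h3, h4, h5, h6⟩ := h
  refine ⟨U, fun y => π (A.e i y), h1, h2, fun y hy => ?_, h5, h6⟩
  exact (HA.self_subm_iff.2 (h4 y hy)).comp (HA.subm_chart (h3 hy))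

theorem subm_prod_id {F : Type} [NormedAddCommGroup F] [NormedSpace ℂ F] [FiniteDimensional ℂ F]
    {N : Type} [TopologicalSpace N] {B : HA F N} {f : M → N} {q : M × M} (h : A.Subm B f q.1) :
    (A.prod A).Subm (B.prod A) (fun q => (f q.1, q.2)) q := by
  obtain ⟨σ, h1, h2, h3⟩ := h.sec
  refine HA.subm_of_sec (h.hol.prodMap (HA.hol_id A q.2)) (σ := fun t => (σ t.1, t.2))
    (HA.Hol.prodMap (x := (f q.1, q.2)) h1 (HA.hol_id A q.2)) (Prod.ext h2 rfl) ?_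
  have c1 : ContinuousAt (fun t : N × M => t.1) (f q.1, q.2) := continuous_fst.continuousAt
  exact (c1.eventually h3).mono fun t ht => Prod.ext ht rfl

variable [T2Space M] [ConnectedSpace M] [Countable A.ι] {k : Key A} (Q : EqvK (relK k))

/-- the points where `Y` is singular along the diagonal -/
def Sig : Set M := {x | ¬ (A.prod A).Reg Q.Y (finrank ℂ E + Q.r) (x, x)}

theorem cov_Sig : A.Cov (finrank ℂ E) (Sig Q) := by
  obtain ⟨x, hx⟩ := Q.ne_good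
  exact Q.an_bad.cov_of_ne fun h => (eq_univ_iff_forall.1 h x) hx

theorem hol_mid (A : HA E M) (t : M × M × M) : (A.prod (A.prod A)).Hol A (fun t => t.2.1) t :=
  (HA.hol_snd _ _ t).fst

/-- the fibres of `pr₁₃` on a component of the fibre product have dimension `≥ r` -/
theorem big_fibre {C : Set (M × M × M)} (hC : (A.prod (A.prod A)).Comp univ (FP Q.Y Q.Y) C)
    (hn : ¬ C ⊆ (fun t => t.2.1) ⁻¹' Sig Q) {t : M × M × M} (ht : t ∈ C) {O : Set (M × M × M)}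
    (hO : O ∈ 𝓝 t) : ¬ (A.prod (A.prod A)).Cov Q.r
      (C ∩ O ∩ (fun t : M × M × M => (t.1, t.2.2)) ⁻¹' {(t.1, t.2.2)}) := by
  intro hc
  have hFP := HA.an_FP Q.irr.1 Q.irr.1
  rcases hr : Q.r with _ | s
  · rw [hr] at hc
    exact eq_empty_iff_forall_notMem.1 (HA.cov_zero.1 hc) t ⟨⟨ht, mem_of_mem_nhds hO⟩, rfl⟩
  rw [hr] at hc
  obtain ⟨hsub, d, hirr⟩ := hC.irr isOpen_univ hFP
  obtain ⟨O', o1, o2, -, o3, -⟩ := HA.usc (hirr.1 t (mem_univ _)) (HA.hol_pr13 A t) hO hc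
  obtain ⟨d', K, -, -, k1, k2, k3⟩ := hC.core isOpen_univ hFP
  obtain ⟨u, u1, u2⟩ : (O' ∩ K).Nonempty :=
    mem_closure_iff.1 (k1 ▸ ht : t ∈ univ ∩ closure K).2 O' o1 o2
  have hd : d' = d := hirr.reg_eq (mem_univ u) (k3 u u2).2.1
  have hthin : (A.prod (A.prod A)).Cov d (univ ∩ C ∩ (fun t => t.2.1) ⁻¹' Sig Q) :=
    (hirr.drop isOpen_univ (Q.an_bad.preimage (fun t _ => hol_mid A t)
      (mapsTo_univ _ _))).resolve_left fun h => hn fun t ht => h ⟨mem_univ _, ht⟩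
  obtain ⟨v, ⟨v1, v2, v3⟩, v4⟩ : ∃ v ∈ C ∩ (O' ∩ {z | z ∈ FP Q.Y Q.Y → z ∈ K}),
      v.2.1 ∉ Sig Q := by
    by_contra h
    push Not at h
    exact (hd ▸ (k3 u u2).2.1).not_cov (inter_mem (o1.mem_nhds u1) (k3 u u2).2.2)
      (hthin.sub fun v hv => ⟨⟨mem_univ _, hv.1⟩, h v hv⟩)
  have v5 : v ∈ K := v3 (hsub v1)
  obtain ⟨a, y, b⟩ := v
  obtain ⟨U, π, hU, hyU, hs, hiff, hsat⟩ := fol_chart (Q.fol y (not_not.1 v4))
  have hreg := (hs y hyU).reg_fibre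
  have e : finrank ℂ E - finrank ℂ (Fin Q.p → ℂ) = s + 1 := by
    rw [finrank_fin_fun, ← hr, ← Q.hpr]
    omega
  rw [e] at hreg
  have c1 : ContinuousAt (fun y' : M => (a, y', b)) y := by fun_prop
  refine hreg.not_cov (inter_mem (hU.mem_nhds hyU) (inter_mem (c1.eventually (o1.mem_nhds v2))
    (c1.eventually (k3 _ v5).2.2))) (((o3 (a, b)).image fun t _ => hol_mid A t).sub ?_)
  rintro y' ⟨h1, h2, h3, h4⟩
  have h5 : (y', y) ∈ Q.Y := (hiff y' h2 y hyU).2 h1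
  have h6 : (a, y', b) ∈ FP Q.Y Q.Y :=
    ⟨Q.symm _ _ (hsat y' h2 y hyU h5 a (Q.symm _ _ (hsub v1).1)), hsat y' h2 y hyU h5 b (hsub v1).2⟩
  exact ⟨(a, y', b), ⟨⟨k2 (h4 h6), h3⟩, rfl⟩, rfl⟩

/-- the bad components of the fibre product -/
def BadC : Set (Set (M × M × M)) :=
  {C | (A.prod (A.prod A)).Comp univ (FP Q.Y Q.Y) C ∧ ¬ C ⊆ (fun t => t.2.1) ⁻¹' Sig Q ∧
    ¬ ∀ q ∈ Q.Y, (q.1, q.2, q.1) ∈ C}

theorem cov_badC {C : Set (M × M × M)} (hC : C ∈ BadC Q) : A.Cov (finrank ℂ E)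
    (Prod.fst '' (Q.Y ∩ (fun q : M × M => (q.1, q.2, q.1)) ⁻¹' C)) := by
  obtain ⟨h1, h2, h3⟩ := hC
  have hj : ∀ q : M × M, (A.prod A).Hol (A.prod (A.prod A)) (fun q => (q.1, q.2, q.1)) q :=
    fun q => (HA.hol_fst A A q).prodMk ((HA.hol_snd A A q).prodMk (HA.hol_fst A A q))
  have han : (A.prod A).An univ ((fun q : M × M => (q.1, q.2, q.1)) ⁻¹' C) :=
    (h1.an isOpen_univ (HA.an_FP Q.irr.1 Q.irr.1)).preimage (fun q _ => hj q) (mapsTo_univ _ _)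
  have h4 := (Q.irr.drop isOpen_univ han).resolve_left fun h => h3 fun q hq => h ⟨mem_univ _, hq⟩
  rw [univ_inter] at h4
  rcases hd : finrank ℂ E + Q.r with _ | d
  · rw [hd] at h4
    rw [HA.cov_zero.1 h4, image_empty]
    exact A.cov_empty _
  rw [hd] at h4
  have h5 := HA.cov_image_of_big (B := A) (m := finrank ℂ E) isOpen_univ
    (fun q _ _ => (Q.irr.1.inter han) q (mem_univ _)) (fun q _ => HA.hol_fst A A q)
    (by rwa [inter_univ]) fun q hq O hO hc => ?_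
  · rwa [inter_univ] at h5
  have e : d + 1 - finrank ℂ E = Q.r := by omega
  rw [e] at hc
  have c1 : ContinuousAt (fun t : M × M × M => (t.1, t.2.1)) (q.1, q.2, q.1) := by fun_prop
  refine big_fibre Q h1 h2 hq.1.2 (c1.preimage_mem_nhds hO) ((hc.image fun q _ => hj q).sub ?_)
  rintro ⟨a, y, b⟩ ⟨⟨t1, t2⟩, t3⟩
  obtain ⟨e1, e2⟩ := Prod.ext_iff.1 (mem_singleton_iff.1 t3)
  change a = q.1 at e1
  change b = q.1 at e2
  have e3 : b = a := e2.trans e1.symm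
  subst e3
  exact ⟨(b, y), ⟨⟨⟨((h1.irr isOpen_univ (HA.an_FP Q.irr.1 Q.irr.1)).1 t1).1, t1⟩, t2⟩, e1⟩, rfl⟩

/-- the points that are not general -/
def Bad : Set M := Sig Q ∪ (⋃ c, {x | ¬ ∀ᶠ q in 𝓝 (x, x), q ∈ k.Z c → q ∈ Q.Y}) ∪
  ⋃ C ∈ BadC Q, Prod.fst '' (Q.Y ∩ (fun q : M × M => (q.1, q.2, q.1)) ⁻¹' C)

theorem cov_Bad : A.Cov (finrank ℂ E) (Bad Q) :=
  ((cov_Sig Q).union (HA.cov_iUnion (loc_key k Q.irr.1 Q.max))).union
    (HA.cov_biUnion ((HA.comp_countable isOpen_univ (HA.an_FP Q.irr.1 Q.irr.1)).mono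
      fun _ h => h.1) fun _ h => cov_badC Q h)

theorem loc_of {x : M} (hx : x ∉ Bad Q) (c : ℕ) : ∀ᶠ q in 𝓝 (x, x), q ∈ k.Z c → q ∈ Q.Y :=
  not_not.1 fun h => hx (Or.inl (Or.inr (mem_iUnion.2 ⟨c, h⟩)))

/-- generic transitivity near `(x, b, x)` -/
theorem ev_trans {x b : M} (hx : x ∉ Bad Q) :
    ∀ᶠ t in 𝓝 (x, b, x), t ∈ FP Q.Y Q.Y → t.2.1 ∉ Sig Q → (t.1, t.2.2) ∈ Q.Y := by
  have hFP := HA.an_FP Q.irr.1 Q.irr.1
  refine (ev_comp isOpen_univ hFP (mem_univ (x, b, x))).mono fun t h ht hs => ?_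
  obtain ⟨C, h1, h2, h3⟩ := h ht
  have h4 : ∀ q ∈ Q.Y, (q.1, q.2, q.1) ∈ C := by
    by_contra h4
    exact hx (Or.inr (mem_biUnion (x := C) ⟨h1, fun h => hs (h h3), h4⟩
      ⟨(x, b), ⟨((h1.irr isOpen_univ hFP).1 h2).1, h2⟩, rfl⟩))
  obtain ⟨Y₃, h5, h6⟩ := up k Q.mem Q.mem h1 fun y => h4 (y, y) (Q.diag y)
  exact Q.max Y₃ h5 (h6 t h3)

/-- **Gr** -/
theorem grAt {x : M} (hx : x ∉ Bad Q) :
    ∃ (U : Set M) (π : M → Fin Q.p → ℂ), GrAt A Q.Y Q.p x U π := by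
  obtain ⟨U, π, hU, hxU, hs, hiff, hsat⟩ :=
    fol_chart (Q.fol x (not_not.1 fun h => hx (Or.inl (Or.inl h))))
  refine ⟨U, π, hU, hxU, hs, hiff, hsat, fun b hb => ?_⟩
  obtain ⟨σ, s1, s2, s3⟩ := (hs x hxU).sec
  have hσ : Tendsto σ (𝓝 (π x)) (𝓝 x) := by
    have := s1.cont
    rwa [ContinuousAt, s2] at this
  have c1 : ContinuousAt (fun q : (Fin Q.p → ℂ) × M => q.1) (π x, b) := continuous_fst.continuousAt
  have hev : ∀ᶠ t in 𝓝 (π x), σ t ∈ U ∧ π (σ t) = t ∧ (HA.self (Fin Q.p → ℂ)).Hol A σ t :=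
    (hσ.eventually (hU.mem_nhds hxU)).and (s3.and s1.eventually)
  -- saturation
  have hsat' : ∀ y ∈ U, σ (π y) ∈ U → π (σ (π y)) = π y → ∀ c, (y, c) ∈ Q.Y ↔ (σ (π y), c) ∈ Q.Y :=
    fun y hy h1 h2 c => ⟨hsat _ h1 y hy ((hiff _ h1 y hy).2 h2) c,
      hsat y hy _ h1 ((hiff y hy _ h1).2 h2.symm) c⟩
  have hΦ : ((HA.self (Fin Q.p → ℂ)).prod A).Hol (A.prod A) (fun q => (σ q.1, q.2)) (π x, b) :=
    HA.Hol.prodMap (x := (π x, b)) s1 (HA.hol_id A b)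
  have hT : Tendsto (fun q : ((Fin Q.p → ℂ) × M) × (Fin Q.p → ℂ) × M => (σ q.1.1, q.1.2, σ q.2.1))
      (𝓝 (π x, b) ×ˢ 𝓝 (π x, b)) (𝓝 (x, b, x)) := by
    rw [nhds_prod_eq (x := x), nhds_prod_eq (x := b)]
    exact ((hσ.comp c1).comp tendsto_fst).prodMk
      ((continuous_snd.continuousAt.tendsto.comp tendsto_fst).prodMk
        ((hσ.comp c1).comp tendsto_snd))
  obtain ⟨W, hW, hW'⟩ := Filter.mem_prod_self_iff.1 (hT.eventually (ev_trans Q (b := b) hx))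
  refine (graph_lemma (A := A) (Γ := (fun q => (σ q.1, q.2)) ⁻¹' Q.Y) (t := π x)
    (b := b) (by simpa only [mem_preimage, s2] using hb)
    (HA.AnAt.preimage hΦ (Q.irr.1 _ (mem_univ _))) ?_ ?_ (cov_Sig Q)
    (inter_mem hW (c1.eventually hev)) ?_).imp fun τ ht => ⟨ht.1, ?_⟩
  · have h1 := ev_cl k Q.irr.1 (loc_of Q hx) (Q.mem.2.2.compact_cl b) (an_cl Q.irr.1 b)
    filter_upwards [mem_nhdsWithin_of_mem_nhds (c1.eventually (hev.and (hσ.eventually h1))),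
      self_mem_nhdsWithin] with q h2 h3 h4 h5
    have h6 : (b, σ q.1) ∈ Q.Y := Q.symm _ _ (h5 ▸ h4)
    have h7 := (hiff x hxU _ h2.1.1).1 (h2.2 h6)
    exact h3 (Prod.ext (h2.1.2.1.symm.trans h7.symm) h5)
  · obtain ⟨V, v1, v2, v3⟩ := _root_.mem_nhds_iff.1 hev
    filter_upwards [c1.eventually (v2.mem_nhds v3)] with q h1 h2 O hO hc
    have h3 := hc.preimage (A := A.prod A) (f := fun q : M × M => (π q.1, q.2))
      (U := U ×ˢ univ) fun q hq => subm_prod_id (hs q.1 hq.1)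
    have e : finrank ℂ (E × E) - finrank ℂ ((Fin Q.p → ℂ) × E) = Q.r := by
      rw [finrank_prod, finrank_prod, finrank_fin_fun, ← Q.hpr]
      omega
    rw [e] at h3
    have c2 : ContinuousAt (fun q : M × M => (π q.1, q.2)) (σ q.1, q.2) :=
      (subm_prod_id (q := (σ q.1, q.2)) (hs _ (v1 h1).1)).hol.cont
    have e2 : (π (σ q.1), q.2) = q := Prod.ext (v1 h1).2.1 rfl
    have c3 : ContinuousAt (fun q : M × M => q.1) (σ q.1, q.2) := continuous_fst.continuousAt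
    have c4 : ContinuousAt (fun q : (Fin Q.p → ℂ) × M => q.1) q := continuous_fst.continuousAt
    have h4 : ∀ᶠ y in 𝓝 (σ q.1, q.2), y.1 ∈ U ∧ (π y.1, y.2) ∈ O ∧ π y.1 ∈ V :=
      (c3.eventually (hU.mem_nhds (v1 h1).1)).and (c2.eventually
        (e2.symm ▸ (inter_mem hO (c4.eventually (v2.mem_nhds h1)) :
          {y | y ∈ O ∧ y.1 ∈ V} ∈ 𝓝 q)))
    obtain ⟨O', o1, o2, o3⟩ := _root_.mem_nhds_iff.1 h4
    refine Q.irr.not_cov isOpen_univ o2 ⟨_, ⟨o3, mem_univ _⟩, h2⟩ (h3.sub ?_)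
    rintro y ⟨⟨y1, -⟩, y2⟩
    obtain ⟨y3, y4, y5⟩ := o1 y1
    exact ⟨⟨y3, mem_univ _⟩, (hsat' y.1 y3 (v1 y5).1 (v1 y5).2.1 y.2).1 y2, y4⟩
  · rintro q ⟨q1, q2, q3⟩ q' ⟨q4, q5, q6⟩ e hS
    have h1 : (σ q.1, σ q'.1) ∈ Q.Y :=
      hW' (mk_mem_prod q2 q5) ⟨q1, Q.symm _ _ (by rw [e]; exact q4)⟩ hS
    have h2 := (hiff _ q3.1 _ q6.1).1 h1
    exact Prod.ext (q3.2.1.symm.trans (h2.trans q6.2.1)) e
  · have c2 : ContinuousAt (fun q : M × M => (π q.1, q.2)) (x, b) :=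
      (subm_prod_id (q := (x, b)) (hs x hxU)).hol.cont
    have c3 : ContinuousAt (fun q : M × M => q.1) (x, b) := continuous_fst.continuousAt
    filter_upwards [c2.eventually ht.2, c2.eventually (c1.eventually hev),
      c3.eventually (hU.mem_nhds hxU)] with q h1 h2 h3
    exact (hsat' q.1 h3 h2.1 h2.2.1 q.2).trans h1

/-- the output -/
def out : Out k where
  p := Q.p
  r := Q.r
  hpr := Q.hpr
  Y := Q.Y
  irr := Q.irr
  diag := Q.diag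
  symm := Q.symm
  bip := Q.mem.2.2
  max := fun Y' d h1 h2 h3 => Q.max Y' ⟨⟨d, h1⟩, h2, h3⟩
  inv := fun g f hb x y h => Q.max _ (Mem.map Q.mem hb) (by
    change (f (g x), f (g y)) ∈ Q.Y
    rwa [hb.fg x (mem_univ _), hb.fg y (mem_univ _)])
  pos := fun h => by
    by_contra hp
    have e : Q.r = finrank ℂ E := by
      have := Q.hpr
      omega
    exact h (compact_of_top (e ▸ Q.irr) Q.mem.2.2)
  forms := Q.forms
  B := Bad Q
  cov := cov_Bad Q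
  gr := fun _ hx => grAt Q hx
  loc := fun _ hx => loc_of Q hx

theorem outStmt_of (h : EqvKStmt) : OutStmt := fun E _ _ _ M _ _ _ A _ k =>
  (h E M A (relK k)).map out

end Crest.Agent.X261.Sh97
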